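import Mathlib.NumberTheory.Padics.PadicIntegers
import Mathlib.RingTheory.Finiteness.Defs

/-!
# P261: finitely generated modules over the `p`-adic integers
-/

namespace Vale.Agent.P261.H631

/-- The abelian group `A` is a finitely generated `ℤ_p`-module. (On the homotopy groups of a
`K(n)`-local spectrum, `n ≥ 1`, there is exactly one structure of a `ℤ_p`-module.) -/
def FG (p : ℕ) [Fact p.Prime] (A : Type) [AddCommGroup A] : Prop :=
  ∃ _ : Module ℤ_[p] A, Module.Finite ℤ_[p] A

end Vale.Agent.P261.H631
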