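import Vale.Agent.P261.H476.GenSt

/-!
# P261: the window theorem for all primes and heights, for every local spectrum
-/

open CategoryTheory MonoidalCategory Limits Pretriangulated MonObj

namespace Vale.Agent.P261.H631

open Vale.Agent.P251.St Vale.Agent.P251.St.SHCat Vale.Agent.P261.H476

/-- The window theorem for all primes, all heights and all local spectra, along a tower of self
maps. -/
theorem general {T : SHCat} {S : Susp T} {p : ℕ} [hp : Fact p.Prime] {n : ℕ} (hn : 1 ≤ n)
    {K : RingSp T} (hK : IsMorava S K p n) {X : T.C}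
    (hX : ∀ W : T.C, Vale.Agent.P251.St.Acyclic K.obj W → ∀ g : Hom W X, g = 0) {N : ℤ} {V : T.C}
    (hV : SelfMapTower T p N V) (hKV : Vale.Agent.P251.St.Acyclic K.obj V) (a : ℤ)
    (hw : ∀ t : ℤ, a ≤ t → t < a + N → FG p (Hom (sphere T t) X)) (t : ℤ) :
    FG p (Hom (sphere T t) X) := by
  have hK' : IsPeriodicField K p (2 * ((p : ℤ) ^ n - 1)) := by
    unfold IsMorava at hK
    rw [if_neg (by omega)] at hK
    exact hK.1
  refine gen_window (T := T.C) hV.gtow (zsmul_id_of_unit hK'.char)
    (fun W hW g => hX W ((IsZero.iff_id_eq_zero _).1 hW) g)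
    ((IsZero.iff_id_eq_zero _).2 hKV) a (fun t h1 h2 => hw t h1 (by omega)) t

end Vale.Agent.P261.H631
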