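import Vale.Agent.P261.H631.Win
import Vale.Agent.P261.H180.Zp
import Vale.Agent.P261.H931.Ext
import Vale.Agent.P261.H292.Loc

/-!
# P261 (helper631): the finite window theorem, category level
-/

open CategoryTheory MonoidalCategory Limits Pretriangulated

universe v u

set_option linter.unusedSectionVars false

namespace Vale.Agent.P261.H631

open Vale.Agent.P251 Vale.Agent.P251.T Vale.Agent.P251.M Vale.Agent.P251.S Vale.Agent.P257.H314

lemma s_eq (p n : ℕ) :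
    s p (n + 1) = ∑ m ∈ Finset.range n, (2 * (p : ℤ) ^ (m + 1) - 1) + 1 := by
  rw [s, Finset.sum_range_succ']
  have h : ∀ m ∈ Finset.range n, 2 * ((p : ℤ) ^ (m + 1) - 1) + 1 = 2 * (p : ℤ) ^ (m + 1) - 1 :=
    fun m _ => by ring
  rw [Finset.sum_congr rfl h]
  simp

variable {T : Type u} [Category.{v} T] [Preadditive T] [HasZeroObject T]
    [HasShift T ℤ] [∀ n : ℤ, (shiftFunctor T n).Additive] [Pretriangulated T]
    [MonoidalCategory T] [SymmetricCategory T] [TensorTriangulated T] [HasCoproducts.{0} T]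
    {D : I.MUData T} {p : ℕ}

theorem exists_stow {h : ℕ} {V : T} {i : 𝟙_ T ⟶ V} (hV : STow D p (h + 1) i) (hh : 1 ≤ h) :
    ∃ (V' : T) (i' : 𝟙_ T ⟶ V'), STow D p h i' := by
  cases hV with
  | one hC => omega
  | succ H x hx f hf j δ hΔ => exact ⟨_, _, H⟩

theorem stow_of_le {h : ℕ} (hh : 1 ≤ h) (k : ℕ) :
    ∀ {V : T} {i : 𝟙_ T ⟶ V}, STow D p (h + k) i → ∃ (V' : T) (i' : 𝟙_ T ⟶ V'), STow D p h i' := by
  induction k with
  | zero => exact fun H => ⟨_, _, H⟩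
  | succ k ih =>
    intro V i H
    obtain ⟨V', i', H'⟩ := exists_stow (h := h + k) H (by omega)
    exact ih H'

/-- **The finite window theorem.** -/
theorem final_window [MonoidalClosed T] [IsTriangulated T] [HasProducts.{0} T] [StableCat T]
    [hp : Fact p.Prime] {n h : ℕ} (hn : n + 1 ≤ h) {V : T} {i : 𝟙_ T ⟶ V} (hV : STow D p h i)
    {K X : T} (hK0 : (p : ℤ) • 𝟙 K = 0) (x : 𝟙_ T ⟶ X) (hx : IsIso (K ◁ x))
    (hX : ∀ W : T, IsZero (K ⊗ W) → ∀ g : W ⟶ X, g = 0)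
    (hA : ∀ {V : T} {i : 𝟙_ T ⟶ V}, STow D p (n + 1) i → IsZero (K ⊗ V)) (a : ℤ)
    (hw : ∀ t : ℤ, a ≤ t → t < a + ∑ m ∈ Finset.range n, (2 * (p : ℤ) ^ (m + 1) - 1) →
      H180.FG p ((𝟙_ T)⟦t⟧ ⟶ X)) (t : ℤ) : H180.FG p ((𝟙_ T)⟦t⟧ ⟶ X) := by
  obtain ⟨k, rfl⟩ := Nat.exists_eq_add_of_le hn
  obtain ⟨V', i', H⟩ := stow_of_le (by omega : 1 ≤ n + 1) k hV
  have h0 : IsZero (X ⊗ V') := H292.zero_of_local H (hA H) x hx hX
  refine H180.fg_of_extC (H931.extC hK0 hX t) ?_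
  refine up hp.out.two_le H X a (a + ∑ m ∈ Finset.range n, (2 * (p : ℤ) ^ (m + 1) - 1) - 1)
    (fun t h1 h2 => ?_) (by rw [s_eq]; omega) h0 t
  have h3 := hw t h1 (by omega)
  exact ⟨H180.cok_of_fg h3, H180.ker_of_fg h3⟩

end Vale.Agent.P261.H631
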