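import Vale.Agent.P261.H631.WinBase
import Vale.Agent.P257.H314.Assemble

/-!
# P261 (helper631), row (C): windows of finite homotopy groups along the tower `V(0), V(1), …`

* `down` : finiteness of `π_t X / p` and `π_t X [p]` on `[a, b]` gives finiteness of
  `π_t (X ⊗ V(h-1))` on `[a + s p h, b]`;
* `up` : if `X ⊗ V(h-1) = 0` and the window is long enough, then `π_t X / p` is finite for all `t`.
-/

open CategoryTheory MonoidalCategory Limits Pretriangulated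

universe v u

set_option linter.unusedSectionVars false

namespace Vale.Agent.P261.H631

open Vale.Agent.P251 Vale.Agent.P251.T Vale.Agent.P251.M Vale.Agent.P251.S Vale.Agent.P257.H314

/-- `s p h = 1 + ∑_{1 ≤ m < h} (|v_m| + 1)` -/
def s (p h : ℕ) : ℤ := ∑ m ∈ Finset.range h, (2 * ((p : ℤ) ^ m - 1) + 1)

lemma s_one (p : ℕ) : s p 1 = 1 := by simp [s]

lemma s_succ (p h : ℕ) : s p (h + 1) = s p h + (2 * ((p : ℤ) ^ h - 1) + 1) := by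
  rw [s, Finset.sum_range_succ]; rfl

variable {T : Type u} [Category.{v} T] [Preadditive T] [HasZeroObject T]
    [HasShift T ℤ] [∀ n : ℤ, (shiftFunctor T n).Additive] [Pretriangulated T]
    [MonoidalCategory T] [SymmetricCategory T] [TensorTriangulated T] [HasCoproducts.{0} T]
    {D : I.MUData T} {p : ℕ}

/-- the tensored triangle -/
theorem dist_tw {A V V' : T} {f : A ⟶ V} {j : V ⟶ V'} {δ : V' ⟶ A⟦(1 : ℤ)⟧}
    (hΔ : Triangle.mk f j δ ∈ distTriang T) (X : T) :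
    ∃ d : X ⊗ V' ⟶ (X ⊗ A)⟦(1 : ℤ)⟧, Triangle.mk (X ◁ f) (X ◁ j) d ∈ distTriang T :=
  ⟨_, TensorTriangulated.distinguished X _ hΔ⟩

lemma fin_tw (X V : T) (w t : ℤ) : Finite ((𝟙_ T)⟦t⟧ ⟶ X ⊗ ((stdEven T).S w ⊗ V)) ↔
    Finite ((𝟙_ T)⟦t - 2 * w⟧ ⟶ X ⊗ V) := by
  rw [fin_iso _ (twI w X V)]
  exact fin_shift _ _ (t - 2 * w) (2 * w) t (by ring)

lemma fin_tw_sh (X V : T) (w t : ℤ) :
    Finite ((𝟙_ T)⟦t⟧ ⟶ (X ⊗ ((stdEven T).S w ⊗ V))⟦(1 : ℤ)⟧) ↔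
    Finite ((𝟙_ T)⟦t - 1 - 2 * w⟧ ⟶ X ⊗ V) := by
  rw [fin_shift _ _ (t - 1) 1 t (by ring)]
  exact fin_tw X V w (t - 1)

lemma STow.one_le {h : ℕ} {V : T} {i : 𝟙_ T ⟶ V} (hV : STow D p h i) : 1 ≤ h := by
  cases hV <;> omega

/-- windows go down the tower -/
theorem down (hp : 1 ≤ p) {h : ℕ} {V : T} {i : 𝟙_ T ⟶ V} (hV : STow D p h i) (X : T) (a b : ℤ)
    (h0 : ∀ t, a ≤ t → t ≤ b → Cok p ((𝟙_ T)⟦t⟧ ⟶ X) ∧ Ker p ((𝟙_ T)⟦t⟧ ⟶ X)) :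
    ∀ t, a + s p h ≤ t → t ≤ b → Finite ((𝟙_ T)⟦t⟧ ⟶ X ⊗ V) := by
  induction hV with
  | one hC =>
    intro t h1 h2
    rw [s_one] at h1
    exact fin_modP hC X t (h0 t (by omega) h2).1 (h0 (t - 1) (by omega) (by omega)).2
  | @succ h V V' i H x hx f hf j δ hΔ ih =>
    intro t h1 h2
    rw [s_succ] at h1
    obtain ⟨d, hd⟩ := dist_tw hΔ X
    have hw : 1 ≤ (p : ℤ) ^ h := one_le_pow₀ (by exact_mod_cast hp)
    refine fin₃ _ hd _ ((fin_tw_sh X V _ t).2 (ih _ (by omega) (by omega))) (ih t (by omega) h2)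

/-- a window of the length of a period is enough -/
theorem all_of_window {V V' : T} {w : ℤ} (hw : 0 < w) {f : (stdEven T).S w ⊗ V ⟶ V}
    {j : V ⟶ V'} {δ : V' ⟶ ((stdEven T).S w ⊗ V)⟦(1 : ℤ)⟧}
    (hΔ : Triangle.mk f j δ ∈ distTriang T) (X : T)
    (hV' : ∀ t : ℤ, Finite ((𝟙_ T)⟦t⟧ ⟶ X ⊗ V')) (c e : ℤ) (hce : c + 2 * w ≤ e + 1)
    (hW : ∀ t, c ≤ t → t ≤ e → Finite ((𝟙_ T)⟦t⟧ ⟶ X ⊗ V)) (t : ℤ) :
    Finite ((𝟙_ T)⟦t⟧ ⟶ X ⊗ V) := by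
  obtain ⟨d, hd⟩ := dist_tw hΔ X
  have up1 : ∀ t : ℤ, Finite ((𝟙_ T)⟦t - 2 * w⟧ ⟶ X ⊗ V) → Finite ((𝟙_ T)⟦t⟧ ⟶ X ⊗ V) :=
    fun t ht => fin₂ _ hd _ ((fin_tw X V w t).2 ht) (hV' t)
  have dn1 : ∀ t : ℤ, Finite ((𝟙_ T)⟦t⟧ ⟶ X ⊗ V) → Finite ((𝟙_ T)⟦t - 2 * w⟧ ⟶ X ⊗ V) := by
    intro t ht
    have h1 := fin₁ _ hd ((𝟙_ T)⟦t + 1⟧) (hV' (t + 1)) ((fin_shift _ _ t 1 (t + 1) rfl).2 ht)
    have h2 := (fin_tw_sh X V w (t + 1)).1 h1
    rwa [show t + 1 - 1 - 2 * w = t - 2 * w by ring] at h2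
  have upn : ∀ (n : ℕ) (t : ℤ), Finite ((𝟙_ T)⟦t⟧ ⟶ X ⊗ V) →
      Finite ((𝟙_ T)⟦t + n * (2 * w)⟧ ⟶ X ⊗ V) := by
    intro n
    induction n with
    | zero => intro t ht; simpa using ht
    | succ n ih =>
      intro t ht
      apply up1
      have := ih t ht
      rwa [show t + ((n + 1 : ℕ) : ℤ) * (2 * w) - 2 * w = t + n * (2 * w) by push_cast; ring]
  have dnn : ∀ (n : ℕ) (t : ℤ), Finite ((𝟙_ T)⟦t⟧ ⟶ X ⊗ V) →
      Finite ((𝟙_ T)⟦t - n * (2 * w)⟧ ⟶ X ⊗ V) := by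
    intro n
    induction n with
    | zero => intro t ht; simpa using ht
    | succ n ih =>
      intro t ht
      have := dn1 _ (ih t ht)
      rwa [show t - ((n + 1 : ℕ) : ℤ) * (2 * w) = t - n * (2 * w) - 2 * w by push_cast; ring]
  have h2w : 0 < 2 * w := by omega
  set q := (t - c) / (2 * w) with hq
  have hr0 := Int.emod_nonneg (t - c) h2w.ne'
  have hr1 := Int.emod_lt_of_pos (t - c) h2w
  have hqr := Int.emod_add_mul_ediv (t - c) (2 * w)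
  have hbase : Finite ((𝟙_ T)⟦c + (t - c) % (2 * w)⟧ ⟶ X ⊗ V) :=
    hW _ (by omega) (by omega)
  rcases le_total 0 q with h | h
  · obtain ⟨n, hn⟩ := Int.eq_ofNat_of_zero_le h
    have := upn n _ hbase
    rwa [show c + (t - c) % (2 * w) + n * (2 * w) = t by
      have : (2 * w) * q = n * (2 * w) := by rw [hn]; simp [mul_comm]
      linarith] at this
  · obtain ⟨n, hn⟩ := Int.eq_ofNat_of_zero_le (neg_nonneg.2 h)
    have := dnn n _ hbase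
    rwa [show c + (t - c) % (2 * w) - n * (2 * w) = t by
      have : (2 * w) * q = -(n * (2 * w)) := by
        have h3 : q = -(n : ℤ) := by
          have : -q = (n : ℤ) := hn
          omega
        rw [h3]; ring
      linarith] at this

/-- a window which is long enough gives all degrees -/
theorem up_aux (hp : 2 ≤ p) {h : ℕ} {V : T} {i : 𝟙_ T ⟶ V} (hV : STow D p h i) (X : T) (a b : ℤ)
    (h0 : ∀ t, a ≤ t → t ≤ b → Cok p ((𝟙_ T)⟦t⟧ ⟶ X) ∧ Ker p ((𝟙_ T)⟦t⟧ ⟶ X))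
    (hlen : a + s p h ≤ b + 2) (hV0 : ∀ t : ℤ, Finite ((𝟙_ T)⟦t⟧ ⟶ X ⊗ V)) :
    ∀ t : ℤ, Cok p ((𝟙_ T)⟦t⟧ ⟶ X) := by
  induction hV with
  | one hC => exact fun t => cok_modP hC X _ (hV0 t)
  | @succ h V V' i H x hx f hf j δ hΔ ih =>
    rw [s_succ] at hlen
    have h1 : 1 ≤ h := STow.one_le H
    have hw : 0 < (p : ℤ) ^ h - 1 := by
      have : (2 : ℤ) ≤ (p : ℤ) ^ h :=
        le_trans (by exact_mod_cast hp) (le_self_pow₀ (by exact_mod_cast (by omega : 1 ≤ p))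
          (by omega))
      omega
    refine ih (by omega) fun t => all_of_window hw hΔ X hV0 (a + s p h) b (by omega)
      (down (by omega) H X a b h0) t

/-- **Row (C)**: if `X ⊗ V(h-1) = 0` and `π_t X` has finite kernel and cokernel of `p` in
sufficiently many consecutive degrees, then the cokernel is finite in all degrees. -/
theorem up (hp : 2 ≤ p) {h : ℕ} {V : T} {i : 𝟙_ T ⟶ V} (hV : STow D p h i) (X : T) (a b : ℤ)
    (h0 : ∀ t, a ≤ t → t ≤ b → Cok p ((𝟙_ T)⟦t⟧ ⟶ X) ∧ Ker p ((𝟙_ T)⟦t⟧ ⟶ X))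
    (hlen : a + s p h ≤ b + 2) (hV0 : IsZero (X ⊗ V)) :
    ∀ t : ℤ, Cok p ((𝟙_ T)⟦t⟧ ⟶ X) :=
  up_aux hp hV X a b h0 hlen fun _ =>
    Finite.of_injective (fun _ => ()) fun f g _ => hV0.eq_of_tgt f g

end Vale.Agent.P261.H631
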