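import Vale.Agent.P257.H314.FinCell

/-!
# P261 (helper631), row (C), base part: finiteness in long exact sequences
-/

open CategoryTheory MonoidalCategory Limits Pretriangulated

universe v u

set_option linter.unusedSectionVars false

namespace Vale.Agent.P261.H631

theorem fin_mid {G H K : Type*} [Finite G] [Finite K] [AddCommGroup H] (f : G → H) (g : H → K)
    (hex : ∀ h h', g h = g h' → ∃ x, h = h' + f x) : Finite H := by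
  classical
  let F : Set.range g × G → H := fun kx => kx.1.2.choose + f kx.2
  refine Finite.of_surjective F fun h => ?_
  obtain ⟨x, hx⟩ := hex h (⟨g h, ⟨h, rfl⟩⟩ : Set.range g).2.choose
      ((⟨g h, ⟨h, rfl⟩⟩ : Set.range g).2.choose_spec).symm
  exact ⟨(⟨g h, ⟨h, rfl⟩⟩, x), hx.symm⟩

/-- finite cokernel of `p` -/
abbrev Cok (p : ℕ) (A : Type*) [AddCommGroup A] : Prop :=
  Finite (A ⧸ (zsmulAddGroupHom (p : ℤ) : A →+ A).range)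

/-- finite kernel of `p` -/
abbrev Ker (p : ℕ) (A : Type*) [AddCommGroup A] : Prop := Finite {a : A // (p : ℤ) • a = 0}

theorem ker_congr {p : ℕ} {A B : Type*} [AddCommGroup A] [AddCommGroup B] (e : A ≃+ B)
    (h : Ker p A) : Ker p B := by
  refine @Finite.of_injective _ {a : A // (p : ℤ) • a = 0} h
    (fun b => ⟨e.symm b.1, by rw [← map_zsmul, b.2, map_zero]⟩) fun b b' hb => ?_
  have := congrArg Subtype.val hb
  exact Subtype.ext (e.symm.injective this)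

variable {T : Type u} [Category.{v} T] [Preadditive T] [HasZeroObject T]
    [HasShift T ℤ] [∀ n : ℤ, (shiftFunctor T n).Additive] [Pretriangulated T]

lemma fin₂ (Δ : Triangle T) (hΔ : Δ ∈ distTriang T) (P : T) (h₁ : Finite (P ⟶ Δ.obj₁))
    (h₃ : Finite (P ⟶ Δ.obj₃)) : Finite (P ⟶ Δ.obj₂) :=
  fin_mid (fun a : P ⟶ Δ.obj₁ => a ≫ Δ.mor₁) (fun b => b ≫ Δ.mor₂) fun h h' e => by
    obtain ⟨x, hx⟩ := Triangle.coyoneda_exact₂ Δ hΔ (h - h') (by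
      rw [Preadditive.sub_comp]
      exact sub_eq_zero.2 e)
    exact ⟨x, by rw [← hx]; abel⟩

lemma fin₃ (Δ : Triangle T) (hΔ : Δ ∈ distTriang T) (P : T) (h₁ : Finite (P ⟶ Δ.obj₁⟦(1 : ℤ)⟧))
    (h₂ : Finite (P ⟶ Δ.obj₂)) : Finite (P ⟶ Δ.obj₃) :=
  fin₂ _ (rot_of_distTriang _ hΔ) P h₂ h₁

lemma fin₁ (Δ : Triangle T) (hΔ : Δ ∈ distTriang T) (P : T) (h₃ : Finite (P ⟶ Δ.obj₃))
    (h₂ : Finite (P ⟶ Δ.obj₂⟦(1 : ℤ)⟧)) : Finite (P ⟶ Δ.obj₁⟦(1 : ℤ)⟧) :=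
  fin₂ _ (rot_of_distTriang _ (rot_of_distTriang _ hΔ)) P h₃ h₂

/-- postcomposition with an isomorphism -/
def postE {Y Z : T} (P : T) (e : Y ≅ Z) : (P ⟶ Y) ≃+ (P ⟶ Z) where
  toFun f := f ≫ e.hom
  invFun f := f ≫ e.inv
  left_inv f := by simp
  right_inv f := by simp
  map_add' f g := by simp

/-- maps between shifts -/
noncomputable def shE (U Y : T) (a b c : ℤ) (h : a + b = c) : (U⟦a⟧ ⟶ Y) ≃+ (U⟦c⟧ ⟶ Y⟦b⟧) where
  toFun f := ((shiftFunctorAdd' T a b c h).app U).hom ≫ f⟦b⟧'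
  invFun g := (shiftFunctor T b).preimage (((shiftFunctorAdd' T a b c h).app U).inv ≫ g)
  left_inv f := by
    apply (shiftFunctor T b).map_injective
    rw [Functor.map_preimage, Iso.inv_hom_id_assoc]
  right_inv g := by
    change ((shiftFunctorAdd' T a b c h).app U).hom ≫ (shiftFunctor T b).map _ = g
    rw [Functor.map_preimage, Iso.hom_inv_id_assoc]
  map_add' f g := by rw [Functor.map_add, Preadditive.comp_add]

lemma fin_shift (U Y : T) (a b c : ℤ) (h : a + b = c) :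
    Finite (U⟦c⟧ ⟶ Y⟦b⟧) ↔ Finite (U⟦a⟧ ⟶ Y) :=
  ⟨fun _ => Finite.of_injective _ (shE U Y a b c h).injective,
    fun _ => Finite.of_injective _ (shE U Y a b c h).symm.injective⟩

lemma fin_iso {Y Z : T} (P : T) (e : Y ≅ Z) : Finite (P ⟶ Y) ↔ Finite (P ⟶ Z) :=
  ⟨fun _ => Finite.of_injective _ (postE P e).symm.injective,
    fun _ => Finite.of_injective _ (postE P e).injective⟩

theorem cok_congr {p : ℕ} {A B : Type*} [AddCommGroup A] [AddCommGroup B] (e : A ≃+ B)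
    (h : Cok p A) : Cok p B := by
  have := h
  refine Finite.of_surjective (QuotientAddGroup.map
    (zsmulAddGroupHom (p : ℤ) : A →+ A).range (zsmulAddGroupHom (p : ℤ) : B →+ B).range
    e.toAddMonoidHom ?_) ?_
  · rintro _ ⟨x, rfl⟩
    exact ⟨e x, by simp⟩
  · intro y
    obtain ⟨y, rfl⟩ := QuotientAddGroup.mk_surjective y
    exact ⟨QuotientAddGroup.mk (e.symm y), by
      rw [QuotientAddGroup.map_mk]
      simp⟩

/-- finiteness of `π_t (A/p)` -/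
theorem fin_cone {p : ℕ} {A C : T} {j : A ⟶ C} {d : C ⟶ A⟦(1 : ℤ)⟧}
    (hΔ : Triangle.mk ((p : ℤ) • 𝟙 A) j d ∈ distTriang T) (U : T) (t : ℤ)
    (h1 : Cok p (U⟦t⟧ ⟶ A)) (h2 : Ker p (U⟦t - 1⟧ ⟶ A)) : Finite (U⟦t⟧ ⟶ C) := by
  have hK : Finite {a : U⟦t⟧ ⟶ A⟦(1 : ℤ)⟧ // (p : ℤ) • a = 0} :=
    ker_congr (shE U A (t - 1) 1 t (by ring)) h2
  have hg : ∀ h : U⟦t⟧ ⟶ C, (p : ℤ) • (h ≫ d) = 0 := by
    intro h
    have h3 : d ≫ ((p : ℤ) • 𝟙 A)⟦(1 : ℤ)⟧' = 0 := comp_distTriang_mor_zero₃₁ _ hΔ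
    rw [Functor.map_zsmul, CategoryTheory.Functor.map_id, Preadditive.comp_zsmul,
      Category.comp_id] at h3
    rw [← Preadditive.comp_zsmul, h3, comp_zero]
  have h6 : ((p : ℤ) • 𝟙 A) ≫ j = 0 := comp_distTriang_mor_zero₁₂ _ hΔ
  rw [Preadditive.zsmul_comp, Category.id_comp] at h6
  refine fin_mid (G := (U⟦t⟧ ⟶ A) ⧸ (zsmulAddGroupHom (p : ℤ) :
    (U⟦t⟧ ⟶ A) →+ (U⟦t⟧ ⟶ A)).range) (K := {a : U⟦t⟧ ⟶ A⟦(1 : ℤ)⟧ // (p : ℤ) • a = 0})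
    (fun x => x.out ≫ j) (fun h => ⟨h ≫ d, hg h⟩) fun h h' e => ?_
  have e1 : h ≫ d = h' ≫ d := congrArg Subtype.val e
  obtain ⟨x, hx⟩ : ∃ x : U⟦t⟧ ⟶ A, h - h' = x ≫ j :=
    Triangle.coyoneda_exact₃ _ hΔ (h - h') (by
      change (h - h') ≫ d = 0
      rw [Preadditive.sub_comp]
      exact sub_eq_zero.2 e1)
  have h4 : -x + (QuotientAddGroup.mk x : (U⟦t⟧ ⟶ A) ⧸ (zsmulAddGroupHom (p : ℤ) :
      (U⟦t⟧ ⟶ A) →+ (U⟦t⟧ ⟶ A)).range).out ∈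
      (zsmulAddGroupHom (p : ℤ) : (U⟦t⟧ ⟶ A) →+ (U⟦t⟧ ⟶ A)).range := by
    rw [← QuotientAddGroup.eq]
    exact (Quotient.out_eq' _).symm
  obtain ⟨w, hw⟩ := h4
  refine ⟨QuotientAddGroup.mk x, ?_⟩
  have h5 : (QuotientAddGroup.mk x : (U⟦t⟧ ⟶ A) ⧸ (zsmulAddGroupHom (p : ℤ) :
      (U⟦t⟧ ⟶ A) →+ (U⟦t⟧ ⟶ A)).range).out = x + (p : ℤ) • w := by
    have : (p : ℤ) • w = -x + (QuotientAddGroup.mk x : (U⟦t⟧ ⟶ A) ⧸ (zsmulAddGroupHom (p : ℤ) :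
      (U⟦t⟧ ⟶ A) →+ (U⟦t⟧ ⟶ A)).range).out := hw
    rw [this]
    abel
  change h = h' + (QuotientAddGroup.mk x : (U⟦t⟧ ⟶ A) ⧸ (zsmulAddGroupHom (p : ℤ) :
      (U⟦t⟧ ⟶ A) →+ (U⟦t⟧ ⟶ A)).range).out ≫ j
  rw [h5, Preadditive.add_comp, Preadditive.zsmul_comp, ← Preadditive.comp_zsmul, h6, comp_zero,
    add_zero, ← hx]
  abel

/-- the cokernel of `p` embeds into `π_t (A/p)` -/
theorem cok_of_fin {p : ℕ} {A C : T} {j : A ⟶ C} {d : C ⟶ A⟦(1 : ℤ)⟧}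
    (hΔ : Triangle.mk ((p : ℤ) • 𝟙 A) j d ∈ distTriang T) (P : T)
    (h1 : Finite (P ⟶ C)) : Cok p (P ⟶ A) := by
  refine Finite.of_injective (β := P ⟶ C) (fun x => x.out ≫ j) fun x y hxy => ?_
  have h2 : (x.out - y.out) ≫ j = 0 := by
    rw [Preadditive.sub_comp]
    exact sub_eq_zero.2 hxy
  obtain ⟨z, hz⟩ : ∃ z : P ⟶ A, x.out - y.out = z ≫ ((p : ℤ) • 𝟙 A) :=
    Triangle.coyoneda_exact₂ _ hΔ (x.out - y.out) h2
  rw [Preadditive.comp_zsmul, Category.comp_id] at hz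
  have h3 : (QuotientAddGroup.mk x.out : (P ⟶ A) ⧸ (zsmulAddGroupHom (p : ℤ) :
      (P ⟶ A) →+ (P ⟶ A)).range) = QuotientAddGroup.mk y.out := by
    rw [QuotientAddGroup.eq]
    refine ⟨-z, ?_⟩
    change (p : ℤ) • (-z) = _
    rw [smul_neg, ← hz]
    abel
  have ex : (QuotientAddGroup.mk x.out : (P ⟶ A) ⧸ (zsmulAddGroupHom (p : ℤ) :
      (P ⟶ A) →+ (P ⟶ A)).range) = x := Quotient.out_eq' x
  have ey : (QuotientAddGroup.mk y.out : (P ⟶ A) ⧸ (zsmulAddGroupHom (p : ℤ) :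
      (P ⟶ A) →+ (P ⟶ A)).range) = y := Quotient.out_eq' y
  rw [← ex, ← ey, h3]

section Tensor

variable [MonoidalCategory T] [SymmetricCategory T] [P251.T.TensorTriangulated T]

open Vale.Agent.P251.T

theorem dist_modP {p : ℕ} {C : T} {i : 𝟙_ T ⟶ C} {δ : C ⟶ (𝟙_ T)⟦(1 : ℤ)⟧}
    (hC : Triangle.mk ((p : ℤ) • 𝟙 (𝟙_ T)) i δ ∈ distTriang T) (X : T) :
    ∃ d : X ⊗ C ⟶ (X ⊗ 𝟙_ T)⟦(1 : ℤ)⟧,
      Triangle.mk ((p : ℤ) • 𝟙 (X ⊗ 𝟙_ T)) (X ◁ i) d ∈ distTriang T := by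
  have h := TensorTriangulated.distinguished X _ hC
  have hm : X ◁ ((p : ℤ) • 𝟙 (𝟙_ T)) = (p : ℤ) • 𝟙 (X ⊗ 𝟙_ T) := by
    rw [← whiskerLeft_id]
    exact (tensorLeft X).map_zsmul
  rw [← hm]
  exact ⟨_, h⟩

/-- the first stage, down -/
theorem fin_modP {p : ℕ} {C : T} {i : 𝟙_ T ⟶ C} {δ : C ⟶ (𝟙_ T)⟦(1 : ℤ)⟧}
    (hC : Triangle.mk ((p : ℤ) • 𝟙 (𝟙_ T)) i δ ∈ distTriang T) (X : T) (t : ℤ)
    (h1 : Cok p ((𝟙_ T)⟦t⟧ ⟶ X)) (h2 : Ker p ((𝟙_ T)⟦t - 1⟧ ⟶ X)) :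
    Finite ((𝟙_ T)⟦t⟧ ⟶ X ⊗ C) := by
  obtain ⟨d, hd⟩ := dist_modP hC X
  exact fin_cone hd _ t (cok_congr (postE _ (ρ_ X).symm) h1) (ker_congr (postE _ (ρ_ X).symm) h2)

/-- the first stage, up -/
theorem cok_modP {p : ℕ} {C : T} {i : 𝟙_ T ⟶ C} {δ : C ⟶ (𝟙_ T)⟦(1 : ℤ)⟧}
    (hC : Triangle.mk ((p : ℤ) • 𝟙 (𝟙_ T)) i δ ∈ distTriang T) (X P : T)
    (h : Finite (P ⟶ X ⊗ C)) : Cok p (P ⟶ X) := by
  obtain ⟨d, hd⟩ := dist_modP hC X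
  exact cok_congr (postE _ (ρ_ X)) (cok_of_fin hd P h)

end Tensor

end Vale.Agent.P261.H631
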